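import Vale.Agent.P022D.End.Cg

/-!
P022E: the top of the proof for non solvable residual image (statements).
-/

set_option linter.all false

open Matrix NumberField

noncomputable section

namespace Vale.Agent.P022E.Top

open Vale.Agent.P022 Vale.Agent.P022.H790.CT Vale.Agent.P022D.Dk Vale.Agent.P022D.Top
  Vale.Agent.P022D.End

section

variable {E : Type} [NontriviallyNormedField E]

/-- the residual trace does not vanish on any term of the derived series -/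
def NS (r : GQ →* GL (Fin 2) E) : Prop :=
  ∀ n : ℕ, ∃ g ∈ derivedSeries GQ n, ¬ ‖(r g : Matrix (Fin 2) (Fin 2) E).trace‖ < 1

/-- the residual eigenvalues are rational -/
def Spl (r : GQ →* GL (Fin 2) E) : Prop :=
  ∀ g, ∃ a : E, ‖a‖ ≤ 1 ∧ ‖a ^ 2 - (r g : Matrix (Fin 2) (Fin 2) E).trace * a +
    (r g : Matrix (Fin 2) (Fin 2) E).det‖ < 1

/-- `r` is integral with non solvable residual image, in normal form -/
structure Big (r : GQ →* GL (Fin 2) E) : Prop where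
  int : ∀ g i j, ‖(r g : Matrix (Fin 2) (Fin 2) E) i j‖ ≤ 1
  ns : NS r
  spl : Spl r
  reg : ∃ g, ‖(r g : Matrix (Fin 2) (Fin 2) E) 0 1‖ < 1 ∧
    ‖(r g : Matrix (Fin 2) (Fin 2) E) 1 0‖ < 1 ∧
    ‖(r g : Matrix (Fin 2) (Fin 2) E) 0 0 - (r g : Matrix (Fin 2) (Fin 2) E) 1 1‖ = 1
  up : ∃ g, ‖(r g : Matrix (Fin 2) (Fin 2) E) 0 1‖ = 1
  lo : ∃ g, ‖(r g : Matrix (Fin 2) (Fin 2) E) 1 0‖ = 1

/-- the twists of residual determinant one have a good residual level -/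
def TH (r : GQ →* GL (Fin 2) E) : Prop :=
  ∀ μ : GQ →* Eˣ, (∀ g, ‖(μ g : E)‖ = 1) → DetOne (tws μ r) →
    ∃ (N₀ : ℕ) (_ : NeZero N₀), N₀ ≠ 1 ∧ Lev (tws μ r) N₀

end

/-- the theorem in fixed weight `i + 1` over fields with a primitive `n`-th root of unity; `S` is
a set of odd primes with product `R` -/
def COREn (R N₀ n : ℕ) [NeZero R] [NeZero N₀] : Prop :=
  ∀ (E : Type) [NontriviallyNormedField E] [NormedAlgebra ℚ_[2] E]
  [IsUltrametricDist E] [FiniteDimensional ℚ_[2] E] (r : GQ →* GL (Fin 2) E)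
  (S : Finset ℕ) (ω : (ZMod R)ˣ →* Eˣ) (i : ℕ),
  Continuous r → OddRep r → Big r → DetOne r → (∀ l ∈ S, l.Prime ∧ l ≠ 2) →
  R = ∏ l ∈ S, l → (∀ p : ℕ, p.Prime → p ≠ 2 → p ∉ S → UnrAt r p) → Lev r N₀ → N₀ ≠ 1 → 1 ≤ i →
  DetW r R ω i → (∃ ζ : E, IsPrimitiveRoot ζ n) → LimR ((N₀ * R) ^ 2) r

/-- **CORE** -/
def CORE : Prop := ∀ (R N₀ : ℕ) [NeZero R] [NeZero N₀], ∃ n : ℕ, 0 < n ∧ COREn R N₀ n

/-- the theorem for integral models -/
def MAIN : Prop := ∀ (E : Type) [NontriviallyNormedField E] [NormedAlgebra ℚ_[2] E]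
  [IsUltrametricDist E] [FiniteDimensional ℚ_[2] E] (r : GQ →* GL (Fin 2) E),
  Continuous r → OddRep r → {p : ℕ | p.Prime ∧ ¬ UnrAt r p}.Finite → Big r → TH r → Q1Concl E r

section

variable {E : Type} [NontriviallyNormedField E] {χ : GQ →* Eˣ} {r : GQ →* GL (Fin 2) E}

theorem NS.tw (hn : ∀ g, ‖(χ g : E)‖ = 1) (h : NS r) : NS (tws χ r) := fun n => by
  obtain ⟨g, hg, h1⟩ := h n
  exact ⟨g, hg, by rwa [tws_tr, norm_mul, hn, one_mul]⟩

theorem Spl.tw (hn : ∀ g, ‖(χ g : E)‖ = 1) (h : Spl r) : Spl (tws χ r) := fun g => by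
  obtain ⟨a, h1, h2⟩ := h g
  refine ⟨(χ g : E) * a, by rwa [norm_mul, hn, one_mul], ?_⟩
  rw [tws_tr, tws_det, show ∀ x t d : E, (x * a) ^ 2 - x * t * (x * a) + x ^ 2 * d =
    x * (x * (a ^ 2 - t * a + d)) from fun _ _ _ => by ring, norm_mul, norm_mul, hn, one_mul,
    one_mul]
  exact h2

theorem Big.tw (hn : ∀ g, ‖(χ g : E)‖ = 1) (h : Big r) : Big (tws χ r) := by
  have e : ∀ g i j, ‖(tws χ r g : Matrix (Fin 2) (Fin 2) E) i j‖ =
      ‖(r g : Matrix (Fin 2) (Fin 2) E) i j‖ := fun g i j => by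
    rw [tws_ent, norm_mul, hn, one_mul]
  refine ⟨fun g i j => ?_, h.ns.tw hn, h.spl.tw hn, ?_, ?_, ?_⟩
  · rw [e]
    exact h.int g i j
  · obtain ⟨g, a, b, c⟩ := h.reg
    refine ⟨g, by rwa [e], by rwa [e], ?_⟩
    rw [tws_ent, tws_ent, ← mul_sub, norm_mul, hn, one_mul]
    exact c
  · obtain ⟨g, a⟩ := h.up
    exact ⟨g, by rwa [e]⟩
  · obtain ⟨g, a⟩ := h.lo
    exact ⟨g, by rwa [e]⟩

variable (E' : Type) [NontriviallyNormedField E'] [NormedAlgebra E E']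

theorem NS.ext (h : NS r) : NS (bc E' r) := fun n => by
  obtain ⟨g, hg, h1⟩ := h n
  exact ⟨g, hg, by rwa [H20.bc_trace, norm_algebraMap']⟩

theorem Spl.ext (h : Spl r) : Spl (bc E' r) := fun g => by
  obtain ⟨a, h1, h2⟩ := h g
  refine ⟨algebraMap E E' a, by rwa [norm_algebraMap'], ?_⟩
  rw [H20.bc_trace, H20.bc_det, ← map_pow, ← map_mul, ← map_sub, ← map_add, norm_algebraMap']
  exact h2

theorem Big.ext (h : Big r) : Big (bc E' r) := by
  refine ⟨fun g i j => ?_, h.ns.ext E', h.spl.ext E', ?_, ?_, ?_⟩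
  · rw [bc_ent, norm_algebraMap']
    exact h.int g i j
  · obtain ⟨g, a, b, c⟩ := h.reg
    refine ⟨g, by rwa [bc_ent, norm_algebraMap'], by rwa [bc_ent, norm_algebraMap'], ?_⟩
    rw [bc_ent, bc_ent, ← map_sub, norm_algebraMap']
    exact c
  · obtain ⟨g, a⟩ := h.up
    exact ⟨g, by rwa [bc_ent, norm_algebraMap']⟩
  · obtain ⟨g, a⟩ := h.lo
    exact ⟨g, by rwa [bc_ent, norm_algebraMap']⟩

end

end Vale.Agent.P022E.Top
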