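import Vale.Agent.P022E.Top.Set0
import Vale.Agent.P022E.Top.Spec
import Vale.Agent.P022E.Sel.Defs

/-!
P022E: the integral model of a representation with non solvable residual image.
-/

set_option linter.all false

open Matrix IsLocalRing

noncomputable section

namespace Vale.Agent.P022E.Top

open Vale.Agent.P022
open Vale.Agent.P027M.S (mx)
open Vale.Agent.P022D.Top (Ob DetOne)

variable {E : Type} [NontriviallyNormedField E] [IsUltrametricDist E]
  [NormedAlgebra ℚ_[2] E] [FiniteDimensional ℚ_[2] E]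

/-- **SETUP** -/
theorem setup {r : GQ →* GL (Fin 2) E} (hc : Continuous r) (hM : Big r) (hd : DetOne r)
    (T : Finset ℕ) (hT : T.Nonempty) :
    ∃ S r', Su0 r T S r' ∧ ∀ H, Sel.Dh S.rb H := by
  obtain ⟨g0, a1, a2, a3⟩ := hM.reg
  obtain ⟨ga, b1⟩ := hM.up
  obtain ⟨gb, b2⟩ := hM.lo
  obtain ⟨S, r', h, -⟩ := setup0 hc hM.int a1 a2 a3 b1 b2 hd T hT
  refine ⟨S, r', h, fun H => ⟨h.opn, h.det, fun g => ?_, h.nsv hM.ns⟩⟩
  obtain ⟨α, c1, c2⟩ := hM.spl g
  obtain ⟨y, hy⟩ := h.spl c1 c2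
  exact ⟨y, (mx S.rb g).trace - y, by ring, by linear_combination hy⟩

end Vale.Agent.P022E.Top
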