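import Vale.Agent.P022E.Dk.Big
import Vale.Agent.P022E.End.Main
import Vale.Agent.P022E.Br.Lev
import Vale.Agent.P022E.Br.Irr

/-!
P022E: the statement for non solvable residual image from the theorem in fixed weight.
-/

set_option linter.all false

open Matrix

noncomputable section

namespace Vale.Agent.P022E.Top

open Vale.Agent.P022 Vale.Agent.P022D.Dk Vale.Agent.P022D.End

/-- **the non solvable case** -/
theorem finalN (hC : CORE) (E : Type) [NontriviallyNormedField E] [NormedAlgebra ℚ_[2] E]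
    [FiniteDimensional ℚ_[2] E] (r : GQ →* GL (Fin 2) E) (hc : Continuous r)
    (ho : St.OddRep r) (hS : {p : ℕ | p.Prime ∧ ¬ St.UnrAt r p}.Finite)
    (k : Type) [Field k] [CharP k 2] (ρ : GQ →* GL (Fin 2) k) (hr : St.IsRes r ρ)
    (hn : ¬ Group.IsSolvable ρ.range) (hs : St.Serre ρ) : St.Q1Concl r := by
  obtain ⟨E', i1, i2, i3, i4, i5, i6, P, hP⟩ := Dk.model (Dk.trB_of r ρ hr hn)
  refine St.q1Concl r (q1_desc r P (End.endE hC E' _ (cj_cont P (bc_cont E' hc))
    ((cj_odd _ _).2 (H20.bc_odd.2 ho)) ?_ hP fun μ hμ hD => ?_))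
  · simp only [cj_unrAt, H20.bc_unrAt]
    exact hS
  · exact Br.lev_of hr (Br.absIrr_of ρ (Br.irrCyc_of ρ hn)) hs _ (fun g => (μ g : E'))
      (fun g => by rw [tws_tr, cj_trace, H20.bc_trace])
      (fun g => by rw [tws_det, cj_det, H20.bc_det]) (hP.tw hμ).int hD

end Vale.Agent.P022E.Top
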