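import Vale.Agent.P022D.Top.Main
import Vale.Agent.P022E.Top.Core
import Vale.Agent.P022E.Top.Fin

/-!
P022E: everything except the patching block and the forms side.
-/

namespace Vale.Agent.P022E.Top

theorem coreC (hL : As.L2) (hF : Fm.FORMS) : CORE :=
  core hL hF fun O _ _ =>
    P022D.V.clad O (P022D.V.cla O) (P022D.V.lift O) (P022D.V.All.div O)

end Vale.Agent.P022E.Top
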