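import Vale.Agent.P022D.Top.Setup
import Vale.Agent.P022E.G6

/-!
P022E: the integral model of the representation, in normal form.
-/

set_option linter.all false

open Matrix NumberField IsLocalRing
open scoped NormedField Valued

noncomputable section

namespace Vale.Agent.P022E.Top

open Vale.Agent.P022 Vale.Agent.P022D
open Vale.Agent.P027M.S (mx)
open Vale.Agent.P022D.Sel (M2)
open Vale.Agent.P022D.Top (Ob mem_Ob norm_Ob unit_Ob max_Ob res_Ob dvd_Ob pow_Ob intg intg_coe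
  open_ker intg_open tf_of DetOne)

variable {E : Type} [NontriviallyNormedField E] [IsUltrametricDist E]

/-- `r'` is an integral model of `r` in the normal form of `S` -/
structure Su0 (r : GQ →* GL (Fin 2) E) (T : Finset ℕ)
    (S : R.Dat (Ob E) (ResidueField (Ob E))) (r' : GQ →* M2 (Ob E)) : Prop where
  red : S.red = residue (Ob E)
  hT : S.T = T
  opn : IsOpen {g : GQ | S.rb g = 1}
  h10 : mx S.rb S.g1 1 0 ≠ 0
  det : ∀ g, (mx S.rb g).det = 1
  lift : ∀ g, (r' g).map S.red = mx S.rb g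
  cont : ∀ k : ℕ,
    IsOpen {g : GQ | (r' g).map (Ideal.Quotient.mk (maximalIdeal (Ob E) ^ k)) = 1}
  tr : ∀ g, ((r' g).trace : E) = (r g : Matrix (Fin 2) (Fin 2) E).trace
  dt : ∀ g, ((r' g).det : E) = (r g : Matrix (Fin 2) (Fin 2) E).det
  dg : r' S.g0 0 1 = 0 ∧ r' S.g0 1 0 = 0
  nm : r' S.g1 0 1 = S.lam
  one : ∀ g, r g = 1 → r' g = 1
  ent : ∀ g i j, ∃ x : Ob E, (x : E) = (r g : Matrix (Fin 2) (Fin 2) E) i j ∧
    residue (Ob E) x = mx S.rb g i j

variable [NormedAlgebra ℚ_[2] E] [FiniteDimensional ℚ_[2] E]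

/-- **SETUP** -/
theorem setup0 {r : GQ →* GL (Fin 2) E} (hc : Continuous r)
    (hi : ∀ g i j, ‖(r g : Matrix (Fin 2) (Fin 2) E) i j‖ ≤ 1) {g0 ga gb : GQ}
    (a01 : ‖(r g0 : Matrix (Fin 2) (Fin 2) E) 0 1‖ < 1)
    (a10 : ‖(r g0 : Matrix (Fin 2) (Fin 2) E) 1 0‖ < 1)
    (hne : ‖(r g0 : Matrix (Fin 2) (Fin 2) E) 0 0 - (r g0 : Matrix (Fin 2) (Fin 2) E) 1 1‖ = 1)
    (hb : ‖(r ga : Matrix (Fin 2) (Fin 2) E) 0 1‖ = 1)
    (hb' : ‖(r gb : Matrix (Fin 2) (Fin 2) E) 1 0‖ = 1)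
    (hd : DetOne r) (T : Finset ℕ) (hT : T.Nonempty) : ∃ S r', Su0 r T S r' ∧ S.g0 = g0 := by
  let r0 := intg r hi
  let π := residue (Ob E)
  let rm : GQ →* M2 (ResidueField (Ob E)) := π.mapMatrix.toMonoidHom.comp r0
  have erm : ∀ g i j, rm g i j = π (r0 g i j) := fun _ _ _ => rfl
  have ez : ∀ g i j, rm g i j = 0 ↔ ‖(r g : Matrix (Fin 2) (Fin 2) E) i j‖ < 1 :=
    fun g i j => res_Ob
  have etr : ∀ g, ((r0 g).trace : E) = (r g : Matrix (Fin 2) (Fin 2) E).trace := fun g => by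
    rw [Matrix.trace_fin_two, Matrix.trace_fin_two]; rfl
  have edt : ∀ g, ((r0 g).det : E) = (r g : Matrix (Fin 2) (Fin 2) E).det := fun g => by
    rw [Matrix.det_fin_two, Matrix.det_fin_two]; rfl
  have hdet : ∀ g, (rm g).det = 1 := fun g => by
    have h1 : π ((r0 g).det - 1) = 0 := res_Ob.2 (by
      rw [AddSubgroupClass.coe_sub, edt]; exact hd g)
    rw [map_sub, map_one, sub_eq_zero, RingHom.map_det] at h1
    exact h1
  obtain ⟨g1, -, n01, n10⟩ := G6.ex_bc (ρ := rm.toHomUnits) ⊤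
    ⟨ga, trivial, fun e => ((ez _ _ _).1 e).ne hb⟩ ⟨gb, trivial, fun e => ((ez _ _ _).1 e).ne hb'⟩
  change rm g1 0 1 ≠ 0 at n01
  change rm g1 1 0 ≠ 0 at n10
  have hne' : rm g0 0 0 ≠ rm g0 1 1 := fun e => by
    have h1 : π (r0 g0 0 0 - r0 g0 1 1) = 0 := by rw [map_sub, ← erm, ← erm, e, sub_self]
    exact (res_Ob.1 h1).ne hne
  have z01 := (ez _ _ _).2 a01
  have z10 := (ez _ _ _).2 a10
  have htr : ∀ g, π (r0 g).trace = (rm g).trace := fun g => by
    rw [Matrix.trace_fin_two, Matrix.trace_fin_two, map_add]; rfl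
  obtain ⟨α, β, hs, hp, hα, hβ⟩ := NR.exists_roots π residue_surjective (maximalIdeal (Ob E))
    (fun a => (residue_eq_zero_iff a).symm) (t := (r0 g0).trace) (d := (r0 g0).det)
    (a := rm g0 0 0) (b := rm g0 1 1) (by rw [htr, Matrix.trace_fin_two]) (by
      rw [RingHom.map_det]
      change _ = (rm g0).det
      rw [Matrix.det_fin_two, z01, zero_mul, sub_zero]) hne'
  obtain ⟨ρ, h1, h2, h3, h4, h5, z, hz⟩ := NR.nr π
    (fun a ha => (notMem_maximalIdeal).1 fun h => ha ((residue_eq_zero_iff a).2 h)) (tf_of r0) rm htr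
    (g0 := g0) (g1 := g1) (g2 := g1) (α := α) (β := β) (lam := r0 g1 0 1) hs hp (by
      rw [hα, hβ]
      ext i j
      fin_cases i <;> fin_cases j <;> simp [z01, z10]) (by rw [hα, hβ]; exact hne') n01 n10 rfl
  have key : ∀ (J : Ideal (Ob E)) g, (r0 g).map (Ideal.Quotient.mk J) = 1 →
      (ρ g).map (Ideal.Quotient.mk J) = 1 := fun J g hg => by
    ext i j
    have h6 := NR.sub_mem_of_sum (t := fun g => (r0 g).trace) hz J (g := g) (g' := 1) (fun k => by
      refine Ideal.Quotient.eq.1 ?_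
      have e : ∀ A : M2 (Ob E), Ideal.Quotient.mk J A.trace =
          (A.map (Ideal.Quotient.mk J)).trace := fun A => by
        rw [Matrix.trace_fin_two, Matrix.trace_fin_two, map_add]; rfl
      rw [mul_one, map_mul r0, e, e, Matrix.map_mul, hg, mul_one]) i j
    rw [Matrix.map_apply, Ideal.Quotient.eq.2 h6, map_one]
    by_cases e : i = j <;> simp [Matrix.one_apply, e]
  have hopen : IsOpen {g : GQ | rm.toHomUnits g = 1} := by
    have h6 := intg_open hc hi 1
    refine open_ker _ (Filter.mem_of_superset (h6.mem_nhds (by simp)) fun g hg => ?_)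
    refine Units.ext ?_
    ext i j
    have h7 := congrFun (congrFun hg i) j
    have h8 : r0 g i j - (1 : M2 (Ob E)) i j ∈ maximalIdeal (Ob E) ^ 1 := Ideal.Quotient.eq.1 (by
      refine h7.trans ?_
      by_cases e : i = j <;> simp [Matrix.one_apply, e])
    rw [pow_one, ← residue_eq_zero_iff, map_sub, sub_eq_zero] at h8
    refine h8.trans ?_
    by_cases e : i = j <;> simp [Matrix.one_apply, e]
  refine ⟨⟨π, rm.toHomUnits, T, g0, g1, r0 g1 0 1, hT.choose, residue_surjective, z01, z10, hne',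
    n01, hT.choose_spec⟩, ρ, ⟨rfl, rfl, hopen, n10, hdet, h3, fun k => ?_,
    fun g => by rw [h1, etr], fun g => by rw [h2]; exact edt g, by
      change ρ g0 0 1 = 0 ∧ ρ g0 1 0 = 0
      rw [h4]; exact ⟨rfl, rfl⟩, h5, fun g hg => ?_, fun g i j => ⟨r0 g i j, rfl, rfl⟩⟩, rfl⟩
  · exact open_ker ((Ideal.Quotient.mk (maximalIdeal (Ob E) ^ k)).mapMatrix.toMonoidHom.comp ρ)
      (Filter.mem_of_superset ((intg_open hc hi k).mem_nhds (by simp)) fun g hg => key _ g hg)
  · have h6 : r0 g = 1 := by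
      ext i j
      rw [intg_coe, hg]
      by_cases e : i = j <;> simp [Matrix.one_apply, e]
    have h7 := key ⊥ g (by rw [h6]; simp)
    ext i j
    have h8 := congrFun (congrFun h7 i) j
    have h9 : ρ g i j - (1 : M2 (Ob E)) i j ∈ (⊥ : Ideal (Ob E)) := Ideal.Quotient.eq.1 (by
      refine h8.trans ?_
      by_cases e : i = j <;> simp [Matrix.one_apply, e])
    rw [sub_eq_zero.1 (Ideal.mem_bot.1 h9)]

section

variable {r : GQ →* GL (Fin 2) E} {T : Finset ℕ} {S : R.Dat (Ob E) (ResidueField (Ob E))}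
  {r' : GQ →* M2 (Ob E)} (h : Su0 r T S r')
include h

theorem Su0.rtr (g : GQ) : residue (Ob E) (r' g).trace = (mx S.rb g).trace := by
  rw [← h.lift, h.red, Matrix.trace_fin_two, Matrix.trace_fin_two, map_add]
  rfl

theorem Su0.rdt (g : GQ) : residue (Ob E) (r' g).det = 1 := by
  rw [RingHom.map_det, RingHom.mapMatrix_apply, ← h.red, h.lift, h.det]

/-- the residual trace vanishes if and only if the trace is small -/
theorem Su0.tr_iff (g : GQ) :
    (mx S.rb g).trace = 0 ↔ ‖(r g : Matrix (Fin 2) (Fin 2) E).trace‖ < 1 := by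
  rw [← h.rtr, res_Ob, h.tr]

/-- rational residual eigenvalues -/
theorem Su0.spl {g : GQ} {α : E} (h1 : ‖α‖ ≤ 1)
    (h2 : ‖α ^ 2 - (r g : Matrix (Fin 2) (Fin 2) E).trace * α +
      (r g : Matrix (Fin 2) (Fin 2) E).det‖ < 1) :
    ∃ a : ResidueField (Ob E), a ^ 2 - (mx S.rb g).trace * a + (mx S.rb g).det = 0 := by
  let x : Ob E := ⟨α, mem_Ob.2 h1⟩
  have e : residue (Ob E) (x ^ 2 - (r' g).trace * x + (r' g).det) = 0 := res_Ob.2 (by
    rw [← h.tr, ← h.dt] at h2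
    exact h2)
  rw [map_add, map_sub, map_mul, map_pow, h.rtr, h.rdt, ← h.det g] at e
  exact ⟨_, e⟩

/-- the residual image is not solvable -/
theorem Su0.nsv
    (hn : ∀ n, ∃ g ∈ derivedSeries GQ n, ¬ ‖(r g : Matrix (Fin 2) (Fin 2) E).trace‖ < 1) :
    ¬ IsSolvable S.rb.range := by
  rintro ⟨n, e⟩
  obtain ⟨g, h1, h2⟩ := hn n
  have h3 : S.rb.rangeRestrict g ∈ derivedSeries S.rb.range n :=
    map_derivedSeries_le_derivedSeries _ n ⟨g, h1, rfl⟩
  rw [e, Subgroup.mem_bot] at h3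
  refine h2 ((h.tr_iff g).1 ?_)
  have h4 : S.rb g = 1 := congrArg Subtype.val h3
  rw [show mx S.rb g = 1 from congrArg Units.val h4]
  simp [CharTwo.two_eq_zero]

end

end Vale.Agent.P022E.Top
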